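import Vale.Agent.Lib.P356.helper23.Core

namespace Vale.Agent.Results.P356.CommutingAreaLaw

open Matrix

open Vale.Agent.Lib.P356

/-- Area law for Hamiltonians with commuting local terms on the square grid
`Fin L × Fin L`, with `q`-level sites.  Let `h i` be finitely many Hermitian operators that
pairwise commute, each acting only on the tensor factors in a set `X i` of `ℓ¹`-diameter at most
`R`, and let `E` be an eigenvalue of their sum whose eigenvectors are exactly the multiples of
the unit vector `Ω` (for instance the ground state energy when the ground state is unique).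
Then for every set `A` of sites the coefficient matrix of `Ω` across the cut between `A` and its
complement has rank at most `q ^ (2 (2R+1)^2 |∂A|)`, and the entanglement entropy of `Ω` across
the cut is at most `2 (2R+1)^2 log q |∂A|`, where `∂A` is the edge boundary of `A`. -/
theorem result (L q R : ℕ) (hq : 0 < q) (ι : Type) [Fintype ι]
    (X : ι → Finset (Fin L × Fin L))
    (h : ι → Matrix (Conf (Fin L × Fin L) q) (Conf (Fin L × Fin L) q) ℂ)
    (hdiam : ∀ i, ∀ x ∈ X i, ∀ y ∈ X i, l1dist x y ≤ R)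
    (hherm : ∀ i, (h i).IsHermitian)
    (hsupp : ∀ i, SupportedOn (X i) (h i))
    (hcomm : ∀ i j, h i * h j = h j * h i)
    (E : ℂ) (Ω : Conf (Fin L × Fin L) q → ℂ)
    (hnorm : ∑ σ, ‖Ω σ‖ ^ 2 = 1)
    (hΩ : (∑ i, h i) *ᵥ Ω = E • Ω)
    (hsimple : ∀ ψ : Conf (Fin L × Fin L) q → ℂ,
      (∑ i, h i) *ᵥ ψ = E • ψ → ∃ c : ℂ, ψ = c • Ω)
    (A : Finset (Fin L × Fin L)) :
    (cutMatrix A Ω).rank ≤ q ^ (2 * (2 * R + 1) ^ 2 * (bdry A).card) ∧
    entropy A Ω ≤ 2 * (2 * (R : ℝ) + 1) ^ 2 * Real.log q * ((bdry A).card : ℝ) :=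
  Vale.Agent.Lib.P356.H23.area_law L q R hq ι X h hdiam hherm hsupp hcomm E Ω hnorm hΩ hsimple A

end Vale.Agent.Results.P356.CommutingAreaLaw
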